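import Vale.Agent.P216.N929.Main
import Vale.Agent.P216.H347.Cross

/-!
# P216-D, block (A): OMEGA for every simply connected `M` with a Thom cochain detecting a cube

`G₀ : cube → M` is continuous and constant on the boundary (a map of the `n`-sphere to `M`); the
Thom cochains `τ(·, p)` do not vanish on it (a map of non-zero degree).
-/

open Set Finsupp BoundedContinuousFunction

namespace Vale.Agent.P216.ND

open Vale.Agent.P216.Sl Vale.Agent.P216.PS Vale.Agent.P216.N929 Vale.Agent.P216.Tau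

/-- The Thom cochain `τ` detects the cube `G₀`, at all points `p`. -/
def Detects {k : Type} [Field k] {M : Type} [MetricSpace M] {n : ℕ} {ρ₁ : ℝ}
    (τ : N929.Tau k M n ρ₁) (G₀ : (Fin n → ℝ) → M) : Prop :=
  ∀ p : M, ∃ d > 0, ∀ δ, 0 < δ → δ ≤ d → ∀ ι : Ch k ℝ, IsMesh ι 0 1 δ →
    ev (fun l => τ.f (l.map fun θ => (G₀ θ, p))) (Qc ι n) ≠ 0

/-- Three distinct points, one of them given. -/
theorem exists_points' {M : Type} [MetricSpace M] [PreconnectedSpace M] [Nontrivial M] (x₀ : M) :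
    ∃ a b : M, x₀ ≠ a ∧ x₀ ≠ b ∧ a ≠ b := by
  have h5 : (univ : Set M).Infinite :=
    isPreconnected_univ.infinite_of_nontrivial Set.nontrivial_univ
  obtain ⟨a, -, ha⟩ := h5.exists_notMem_finite (Set.finite_singleton x₀)
  obtain ⟨b, -, hb⟩ := h5.exists_notMem_finite ((Set.finite_singleton x₀).insert a)
  simp only [mem_singleton_iff, mem_insert_iff, not_or] at ha hb
  exact ⟨a, b, fun h => ha h.symm, fun h => hb.2 h.symm, fun h => hb.1 h.symm⟩

variable {n : ℕ} {M : Type} [MetricSpace M] [CompactSpace M]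

/-- **B36**, with the scale `e` chosen at the end: cycles of loops at `q` of a duration `s`
independent of the field and of the scale. -/
theorem loops' (hn : 2 ≤ n) {ρ₀ : ℝ} (hρ₀ : 0 < ρ₀) (hseg : LS.UniqSeg M ρ₀) {q : M}
    {G : (Fin n → ℝ) → M} (hG : Continuous G) (hGb : ∀ θ ∈ bdc n, G θ = q) :
    ∃ la > 0, ∀ s ≥ la, ∀ ε > 0, ∀ (k : Type) [Field k] (d₃ : ℝ), 0 < d₃ →
      ∃ (c : Ch k (Fin n → ℝ)) (z : Ch k (ℝ →ᵇ M)) (δ : ℝ) (ι' : Ch k ℝ), 0 < δ ∧ δ ≤ d₃ ∧
        IsMesh ι' 0 1 δ ∧ c = Qc ι' n ∧ N929.Cy (PS.P q q s) ε (n - 1) z ∧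
        ∀ (e : ℝ) (p : M) (f : List (M × M) → k), Nrm f → N929.Coc univ e n f →
          ∀ ι : Ch k ℝ, N929.Edge 0 s (min ε (e / 2)) ι → ε ≤ e / 2 →
            ev (fun l => f (l.map (evp p))) (sh z ι) =
              ev (fun l => f (l.map fun θ => (G θ, p))) c := by
  obtain ⟨la, hla, a, ha, haP⟩ := stPoly M ρ₀ hρ₀ hseg n G q hG (by omega) hGb
  refine ⟨la, hla, fun s hs ε hε k _ d₃ hd₃ => ?_⟩
  obtain ⟨d₆, hd₆, hmod⟩ := modulus (isCompact_cube n) ha hε
  obtain ⟨ι', hι'⟩ := exists_isMesh k zero_le_one (lt_min hd₃ hd₆)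
  have hδ0 : 0 < min d₃ d₆ := lt_min hd₃ hd₆
  have hc := isCube_Qc hδ0 hι' n
  set c := Qc ι' n with hcdef
  set σ : k := -(-1) ^ n with hσ
  have hσσ : σ * σ = 1 := by
    rw [hσ, neg_mul_neg, ← mul_pow]
    simp
  refine ⟨c, σ • mp a (bd c), min d₃ d₆, ι', hδ0, min_le_left _ _, hι', rfl, ⟨?_, ?_⟩, ?_⟩
  · refine Submodule.smul_mem _ _ (map_mem (P := SmS n (bdc n) (min d₃ d₆)) _ (fun l hl => ?_)
      hc.bd)
    rw [mp_single]
    refine single_mem (P := fun l : List (ℝ →ᵇ M) => l.length = n - 1 + 1 ∧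
      N929.Fine (PS.P q q s) ε l) ⟨by rw [List.length_map, hl.1]; omega, fun x hx => ?_,
      fun x hx y hy => ?_⟩ _
    · obtain ⟨θ, hθ, rfl⟩ := List.mem_map.1 hx
      have h1 := hl.2.1 θ hθ
      have h2 := haP θ h1.1
      rw [hGb θ h1] at h2
      exact PS.P_mono hs h2
    · obtain ⟨θ, hθ, rfl⟩ := List.mem_map.1 hx
      obtain ⟨θ', hθ', rfl⟩ := List.mem_map.1 hy
      exact hmod θ (hl.2.1 θ hθ).1 θ' (hl.2.1 θ' hθ').1
        ((hl.2.2 θ hθ θ' hθ').trans_le (min_le_right _ _))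
  · rw [map_smul, bd_mp, bd_bd, map_zero, smul_zero]
    exact Submodule.zero_mem _
  · intro e p f hf hcoc ι hι hεe
    rw [min_eq_left hεe] at hι
    have hι2 : ι ∈ Sp k (Ln 2) := Sp_mono (fun l hl => hl.1) hι.1
    set K : (Fin n → ℝ) × ℝ → M × M := fun x => evp p (a x.1, x.2) with hK
    have h1 : ev (dl f) (mp K (sh c ι)) = 0 := by
      rw [ev_mp]
      refine ev_zero_of (P := fun l => l.length = n + 2 ∧ ∀ x ∈ l, x.1 ∈ cube n ∧
        ∀ y ∈ l, dist x.1 y.1 < d₆ ∧ dist x.2 y.2 < ε) (fun l hl => ?_)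
        (sh_mem (fun s t l hs ht hl => ?_) hc.mem hι.1)
      · refine hcoc _ (by rw [List.length_map, hl.1]) ⟨fun _ _ => mem_univ _,
          fun z hz z' hz' => ?_⟩
        obtain ⟨x, hx, rfl⟩ := List.mem_map.1 hz
        obtain ⟨y, hy, rfl⟩ := List.mem_map.1 hz'
        rw [hK]
        simp only [evp]
        rw [Prod.dist_eq, dist_self, max_eq_left dist_nonneg]
        have h2 := (hl.2 x hx).2 y hy
        have h3 := hmod x.1 (hl.2 x hx).1 y.1 (hl.2 y hy).1 h2.1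
        have h4 := N929.dist_ev_le (w := a x.1) (w' := a y.1) (σ := x.2) (σ' := y.2)
          (haP x.1 (hl.2 x hx).1).1
        have h5 := h2.2
        rw [Real.dist_eq] at h5
        linarith
      · refine ⟨?_, fun x hx => ⟨hs.2.1 _ (hl.2 x hx).1, fun y hy =>
          ⟨(hs.2.2 _ (hl.2 x hx).1 _ (hl.2 y hy).1).trans_le (min_le_right _ _),
            ht.2.2 _ (hl.2 x hx).2 _ (hl.2 y hy).2⟩⟩⟩
        have h1 := hl.1
        have h2 := hs.1
        have h3 := ht.1
        omega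
    have h2 := stokes f hc.ln hι2 hι.2 K h1
    -- the end `t = s`
    have h3 : ev f (mp (fun x => K (x, s)) c) =
        ev (fun l => f (l.map fun θ => (G θ, p))) c := by
      rw [ev_mp]
      refine ev_congr (fun l hl => ?_) hc.mem
      congr 1
      refine List.map_congr_left fun θ hθ => ?_
      rw [hK]
      simp only [evp]
      rw [PS.eq_right (haP θ (hl.2.1 θ hθ)) hs]
    -- the end `t = 0`
    have h4 : ev f (mp (fun x => K (x, 0)) c) = 0 := by
      rw [ev_mp]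
      refine ev_zero_of (fun l hl => ?_) hc.mem
      have h5 : l.map (fun x => K (x, 0)) = l.map fun _ => (q, p) :=
        List.map_congr_left fun θ hθ => by
          rw [hK]
          simp only [evp]
          rw [PS.eq_left (haP θ (hl.2.1 θ hθ)) le_rfl]
      rw [h5]
      refine hf _ fun hch => ?_
      have h6 : l.length = n + 1 := hl.1
      rcases l with _ | ⟨x, _ | ⟨y, l⟩⟩
      · simp at h6
      · simp only [List.length_cons, List.length_nil] at h6
        omega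
      · rw [List.map_cons, List.map_cons, List.isChain_cons_cons] at hch
        exact hch.1 rfl
    rw [h3, h4, sub_zero] at h2
    have h5 : ev (fun l => f (l.map (evp p))) (sh (σ • mp a (bd c)) ι) =
        σ * ev f (mp K (sh (bd c) ι)) := by
      rw [map_smul, LinearMap.smul_apply, map_smul, smul_eq_mul]
      have h6 := sh_mp (k := k) a (id : ℝ → ℝ) (bd c) ι
      rw [mp_id] at h6
      rw [h6, ev_mp, ev_mp]
      congr 1
      refine ev_congr (P := fun _ => True) (fun l _ => ?_) (by simp [Finsupp.mem_supported])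
      rw [List.map_map]
      rfl
    rw [h5, h2]
    have h7 : (-1 : k) ^ n * (-1) ^ n = 1 := by
      rw [← mul_pow]
      simp
    rw [hσ]
    linear_combination (ev (fun l => f (l.map fun θ => (G θ, p))) c) * h7

/-- Moving the boundary value of the cube. -/
theorem exists_moved (hn : 2 ≤ n) [PathConnectedSpace M] {G₀ : (Fin n → ℝ) → M}
    (hG : Continuous G₀) {xm : M} (hGb : ∀ θ ∈ bdc n, G₀ θ = xm) (q : M) :
    ∃ G : (Fin n → ℝ) → M, Continuous G ∧ (∀ θ ∈ bdc n, G θ = q) ∧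
      ∀ (k : Type) [Field k] (ρ₁ : ℝ) (τ : N929.Tau k M n ρ₁), Detects τ G₀ → Detects τ G := by
  obtain ⟨γ⟩ := PathConnectedSpace.joined xm q
  obtain ⟨Kb, hKb, hK0, hK1⟩ := exists_fam hG hGb γ
  refine ⟨fun θ => Kb (θ, 1), hKb.comp (continuous_id.prodMk continuous_const), fun θ hθ => ?_,
    fun k _ ρ₁ τ hτ p => ?_⟩
  · simp only
    rw [hK1 θ hθ 1 (by simp), Path.extend_one]
  · obtain ⟨d₄, hd₄, hev⟩ := hτ p
    obtain ⟨d₂, hd₂, hmv⟩ := move hn (K := fun x => (Kb x, p)) (hKb.prodMk continuous_const)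
      (b := fun s => (γ.extend s, p)) (fun θ hθ s hs => congrArg (fun a => (a, p)) (hK1 θ hθ s hs))
      τ.hε
    refine ⟨min d₄ d₂, lt_min hd₄ hd₂, fun δ hδ0 hδ ι hι => ?_⟩
    have hcube := isCube_Qc hδ0 hι n
    have h2 := hmv k τ.f τ.nrm τ.coc δ (hδ.trans (min_le_right _ _)) (Qc ι n) hcube
    rw [h2]
    refine fun h0 => hev δ hδ0 (hδ.trans (min_le_left _ _)) ι hι ?_
    rw [← h0]
    refine ev_congr (fun l hl => ?_) hcube.mem
    congr 1
    refine List.map_congr_left fun θ hθ => ?_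
    rw [hK0 θ (hl.2.1 θ hθ)]

/-- **(A) OMEGA for `M`.** -/
theorem omegaD (M : Type) [MetricSpace M] [CompactSpace M] [SimplyConnectedSpace M] [Nontrivial M]
    {n : ℕ} (hn : 2 ≤ n) {ρ : ℝ} (hρ : 0 < ρ) (hU : LS.UniqSeg M ρ) (x₀ : M)
    {G₀ : (Fin n → ℝ) → M} (hG : Continuous G₀) {xm : M} (hGb : ∀ θ ∈ bdc n, G₀ θ = xm)
    (Pk : ∀ (k : Type) [Field k], Prop)
    (hτ : ∀ ρ₁ > 0, ∀ (k : Type) [Field k], Pk k → ∃ τ : N929.Tau k M n ρ₁, Detects τ G₀) :
    ∃ B : ℝ, 0 < B ∧ ∀ (k : Type) [Field k], Pk k →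
      Nonempty (B64.OmegaOut M (n - 1) x₀ B k) := by
  obtain ⟨a, b, h1, h2, h3⟩ := exists_points' x₀
  obtain ⟨G, rfl⟩ := exists_geo hU hρ hn h1 h2 h3
  obtain ⟨D, hD, hne, hj⟩ := H250.pi0 hρ hU
  choose Gc hGc hGcb hGcd using fun c : Bool => exists_moved hn hG hGb (G.y c)
  choose la hla hloop using fun c : Bool => loops' hn hρ hU (hGc c) (hGcb c)
  set s : ℝ := max (la true) (la false) with hs
  have hs0 : 0 ≤ s := (hla true).le.trans (le_max_left _ _)
  have hsb : ∀ c : Bool, la c ≤ s := by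
    rintro (_ | _)
    · exact le_max_right _ _
    · exact le_max_left _ _
  refine ⟨OmSys.BB G.r (D + s) D, ?_, fun k _ hk => ?_⟩
  · have := G.hr
    unfold OmSys.BB
    linarith
  · obtain ⟨τ, hdet⟩ := hτ G.ρ₁ G.h1 k hk
    have S : OmSys k M (n - 1) G.r (D + s) G.x₀ τ.f :=
      omSys G τ Crs.cross (N := n - 1) (by omega) (fun _ => D) (fun _ => s) (fun _ => hD)
        (fun _ => hs0) (fun _ => rfl) (fun c => hne _ _) fun c => by
          obtain ⟨d, hd, hev⟩ := hGcd c k G.ρ₁ τ hdet (G.y (!c))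
          refine ⟨τ.ε / 2, half_pos τ.hε, fun ε hε hε' => ?_⟩
          obtain ⟨c', z, δ, ι', hδ0, hδ, hι', rfl, hz, hzev⟩ := hloop c s (hsb c) ε hε k d hd
          have hv := hev δ hδ0 hδ ι' hι'
          refine ⟨(ev (fun l => τ.f (l.map fun θ => (Gc c θ, G.y (!c)))) (Qc ι' n))⁻¹ • z,
            ⟨Submodule.smul_mem _ _ hz.1, by
              rw [map_smul]
              exact Submodule.smul_mem _ _ hz.2⟩, fun ι hι => ?_⟩
          rw [map_smul, LinearMap.smul_apply, map_smul, smul_eq_mul,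
            hzev τ.ε (G.y (!c)) τ.f τ.nrm τ.coc ι (by rwa [min_eq_left hε']) hε',
            inv_mul_cancel₀ hv]
    refine ⟨S.omegaOut (r₀ := G.ρ₁) (εt := τ.ε) (D := D) G.seg G.hr G.hrρ G.h1r τ.hε ?_
      ⟨hD, hne, hj⟩ (by linarith) (by omega)⟩
    have e : n - 1 + 1 = n := by omega
    rw [e]
    exact ⟨τ.nrm, τ.coc, fun l _ _ h => τ.supp l h⟩

end Vale.Agent.P216.ND
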