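import Vale.Agent.P216.ND.OmD
import Vale.Agent.P216.B609.Base0
import Vale.Agent.P216.B64.Contract
import Vale.Agent.P216.H779D.DegB

/-!
# P216-D, block (A): detection of a cube of non-zero degree
-/

open Set Finsupp BoundedContinuousFunction

namespace Vale.Agent.P216.ND

open Vale.Agent.P216.Sl Vale.Agent.P216.PS Vale.Agent.P216.N929 Vale.Agent.P216.Tau
open Vale.Agent.P216.AS Vale.Agent.P216.B64

section Line

variable {E : Type} [PseudoMetricSpace E] {k : Type} [Field k]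

theorem rank_HU_le (X : Set E) (n : ℕ) :
    Module.rank k (HU k X n) ≤ Module.rank k (Low.Hu k X n) := by
  have hS : Cc (a0 E) (c0 k) X ≤ Cc (fun _ : Unit => (id : E → E)) (fun _ : Unit => (1 : k)) X :=
    fun n f _ => Low.eqv_id f
  have hT : Zr (a0 E) (c0 k) X X ≤
      Zr (fun _ : Unit => (id : E → E)) (fun _ : Unit => (1 : k)) X X :=
    fun n f hf => ⟨Low.eqv_id f, hf.2⟩
  have hb : Function.Bijective (Hinc hS hT n) :=
    Hmap_bijective (IsMor.id_of_le hS hT) (fun {n x} _ hx => ⟨fun e => e.elim, hx.2⟩)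
      fun {n y} _ => ⟨y, fun e => e.elim, by
        rw [LinearMap.id_apply, sub_self]
        exact Submodule.zero_mem _⟩
  exact LinearMap.rank_le_of_injective _ hb.injective

/-- In a cohomology of dimension at most one, every cocycle is a multiple of a non-exact one. -/
theorem line_of_rank {X : Set E} {n : ℕ} (h : Module.rank k (HU k X n) ≤ 1) {f g : List E → k}
    (hf : CocL X n f) (hg : CocL X n g) (hg0 : ¬ ExL X n g) :
    ∃ c : k, ExL X n fun l => f l - c * g l := by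
  obtain ⟨v, hv⟩ := rank_le_one_iff.1 h
  obtain ⟨a, ha⟩ := hv (cls (a0 E) (c0 k) f hf)
  obtain ⟨b, hb⟩ := hv (cls (a0 E) (c0 k) g hg)
  have hb0 : b ≠ 0 := by
    rintro rfl
    rw [zero_smul] at hb
    exact hg0 (cls_eq_zero.1 hb.symm)
  refine ⟨a * b⁻¹, cls_eq_cls (a := a0 E) (χ := c0 k) (hf := hf) (hg := hg.smul _) |>.1 ?_⟩
  rw [← cls_smul (a * b⁻¹) hg, ← ha, ← hb, smul_smul, mul_assoc, inv_mul_cancel₀ hb0, mul_one]

end Line

/-- `H^n` of a space homeomorphic to the `n`-sphere is a line. -/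
theorem sph_line {k : Type} [Field k] {M : Type} [MetricSpace M] [CompactSpace M] {n : ℕ}
    (hn : 1 ≤ n) (e : M ≃ₜ Metric.sphere (0 : EuclideanSpace ℝ (Fin (n + 1))) 1)
    {f g : List M → k} (hf : CocL univ n f) (hg : CocL univ n g) (hg0 : ¬ ExL univ n g) :
    ∃ c : k, ExL univ n fun l => f l - c * g l := by
  refine line_of_rank ((rank_HU_le _ _).trans ((B609.rank_of_homeo e n).trans ?_)) hf hg hg0
  rw [if_neg (by omega), if_pos rfl, zero_add]

/-- **Exact cochains vanish on fine cubes with constant boundary.** -/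
theorem ev_exL {k : Type} [Field k] {M : Type} [PseudoMetricSpace M] {n : ℕ}
    {F : List M → k} (hF : ExL univ n F) {q : M} (hq : F (List.replicate (n + 1) q) = 0)
    {G : (Fin n → ℝ) → M} (hG : Continuous G) (hGb : ∀ θ ∈ bdc n, G θ = q) :
    ∃ d > 0, ∀ δ, 0 < δ → δ ≤ d → ∀ ι : Ch k ℝ, IsMesh ι 0 1 δ →
      ev (fun l => F (l.map G)) (Qc ι n) = 0 := by
  obtain ⟨u, -, ε, hε, hu⟩ := hF
  obtain ⟨d, hd, hmod⟩ := modulus (isCompact_cube n) hG.continuousOn hε
  refine ⟨d, hd, fun δ hδ0 hδ ι hι => ?_⟩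
  have hcube := isCube_Qc hδ0 hι n
  set a : k := u (List.replicate n q) with ha
  have h0 : a * dl (fun _ => (1 : k)) (List.replicate (n + 1) q) = 0 := by
    have e1 : F (List.replicate (n + 1) q) = dl u (List.replicate (n + 1) q) :=
      hu _ List.length_replicate ⟨fun _ _ => mem_univ _, fun x hx y hy => by
        rw [List.eq_of_mem_replicate hx, List.eq_of_mem_replicate hy, dist_self]
        exact hε⟩
    rw [← Sl.dl_mul_left, ← hq, e1]
    refine Sl.dl_congr fun l' hl' hs => ?_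
    rw [mul_one, ha]
    congr 1
    refine (List.eq_replicate_iff.2 ⟨?_, fun x hx => List.eq_of_mem_replicate (hs x hx)⟩).symm
    rw [List.length_replicate] at hl'
    omega
  -- the primitive corrected by a constant
  have h1 : ev (fun l => F (l.map G)) (Qc ι n) =
      ev (dl fun l => u (l.map G) + (-a) * 1) (Qc ι n) := by
    refine ev_congr (fun l hl => ?_) hcube.mem
    have e1 : F (l.map G) = dl u (l.map G) := hu _ (by rw [List.length_map, hl.1])
      ⟨fun _ _ => mem_univ _, fun x hx y hy => ?_⟩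
    · have e2 : dl (fun _ : List (Fin n → ℝ) => (1 : k)) l =
          dl (fun _ => (1 : k)) (List.replicate (n + 1) q) := by
        have e3 := Sl.dl_map (fun _ : List M => (1 : k)) (fun _ : Fin n → ℝ => q) l
        rw [List.map_const', hl.1] at e3
        exact e3
      rw [e1, Sl.dl_add, Sl.dl_map, Sl.dl_mul_left, e2, neg_mul, h0, neg_zero, add_zero]
    · obtain ⟨θ, hθ, rfl⟩ := List.mem_map.1 hx
      obtain ⟨θ', hθ', rfl⟩ := List.mem_map.1 hy
      exact hmod θ (hl.2.1 θ hθ) θ' (hl.2.1 θ' hθ') ((hl.2.2 θ hθ θ' hθ').trans_le hδ)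
  rw [h1, ev_dl]
  refine ev_zero_of (fun l hl => ?_) hcube.bd
  have e4 : l.map G = List.replicate n q := by
    refine List.eq_replicate_iff.2 ⟨by rw [List.length_map, hl.1], fun x hx => ?_⟩
    obtain ⟨θ, hθ, rfl⟩ := List.mem_map.1 hx
    exact hGb θ (hl.2.1 θ hθ)
  rw [e4, ← ha, mul_one, add_neg_cancel]

theorem nrm_replicate {k : Type} [Field k] {α : Type} {F : List α → k} (hF : Nrm F) {n : ℕ}
    (hn : 1 ≤ n) (q : α) : F (List.replicate (n + 1) q) = 0 := by
  refine hF _ fun h => ?_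
  obtain ⟨m, rfl⟩ := Nat.exists_eq_add_of_le' hn
  rw [List.replicate_succ, List.replicate_succ, List.isChain_cons_cons] at h
  exact h.1 rfl

/-- Two cohomologous normalised cochains agree on fine cubes with constant boundary. -/
theorem ev_congr_exL {k : Type} [Field k] {M : Type} [PseudoMetricSpace M] {n : ℕ} (hn : 1 ≤ n)
    {F F' : List M → k} (hF : Nrm F) (hF' : Nrm F') {c : k}
    (h : ExL univ n fun l => F l - c * F' l) {q : M}
    {G : (Fin n → ℝ) → M} (hG : Continuous G) (hGb : ∀ θ ∈ bdc n, G θ = q) :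
    ∃ d > 0, ∀ δ, 0 < δ → δ ≤ d → ∀ ι : Ch k ℝ, IsMesh ι 0 1 δ →
      ev (fun l => F (l.map G)) (Qc ι n) = c * ev (fun l => F' (l.map G)) (Qc ι n) := by
  obtain ⟨d, hd, H⟩ := ev_exL h (q := q)
    (by rw [nrm_replicate hF hn, nrm_replicate hF' hn]; ring) hG hGb
  refine ⟨d, hd, fun δ hδ0 hδ ι hι => ?_⟩
  have h1 := H δ hδ0 hδ ι hι
  have e : (fun l : List (Fin n → ℝ) => F (l.map G) - c * F' (l.map G)) =
      fun l => F (l.map G) + (-c) * F' (l.map G) := by funext l; ring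
  have h2 := ev_add_fun (fun l : List (Fin n → ℝ) => F (l.map G))
    (fun l => (-c) * F' (l.map G)) (Qc ι n)
  have h3 := ev_smul_fun (-c) (fun l : List (Fin n → ℝ) => F' (l.map G)) (Qc ι n)
  rw [e, h2, h3] at h1
  linear_combination h1

section Sphere

open H779D (Sq)

variable {m : ℕ}

/-- **The cube of the sphere detects every non-exact cocycle.** -/
theorem exists_cube (hm : 1 ≤ m) : ∃ (G : (Fin (m + 1) → ℝ) → Sq m) (q : Sq m), Continuous G ∧
    (∀ θ ∈ bdc (m + 1), G θ = q) ∧ ∀ (k : Type) [Field k] (w : List (Sq m) → k), Nrm w →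
      CocL univ (m + 1) w → ¬ ExL univ (m + 1) w → ∃ d > 0, ∀ δ, 0 < δ → δ ≤ d →
        ∀ ι : Ch k ℝ, IsMesh ι 0 1 δ → ev (fun l => w (l.map G)) (Qc ι (m + 1)) ≠ 0 := by
  have q : Sq m := H779D.Bp (0, 0)
  obtain ⟨c, d, H, N, hN, H1⟩ := Tau.eval_all (n := m + 1) (by omega) (Homeomorph.refl (Sq m))
    one_pos
  obtain ⟨G, d₃, hG, hGb, hd₃, hev⟩ := H1 true q q
  refine ⟨G, q, hG, hGb, fun k _ w hw hwc hw0 => ?_⟩
  set v : List (Sq m) → k := fun l => (tauS (Homeomorph.refl (Sq m)) k H one_pos hN).f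
    (l.map fun x => (x, q)) with hv
  have hvn : Nrm v := fun l hl =>
    (tauS (Homeomorph.refl (Sq m)) k H one_pos hN).nrm _ fun h => hl ?_
  have hvc : CocL univ (m + 1) v := by
    refine ⟨_, (tauS (Homeomorph.refl (Sq m)) k H one_pos hN).hε, fun l hl hs => ?_⟩
    rw [hv, Sl.dl_map]
    refine (tauS (Homeomorph.refl (Sq m)) k H one_pos hN).coc _ (by rw [List.length_map, hl])
      ⟨fun _ _ => mem_univ _, fun x hx y hy => ?_⟩
    obtain ⟨a, ha, rfl⟩ := List.mem_map.1 hx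
    obtain ⟨b, hb, rfl⟩ := List.mem_map.1 hy
    rw [Prod.dist_eq]
    simpa using hs.2 a ha b hb
  · obtain ⟨a, ha⟩ := sph_line (by omega) (Homeomorph.refl (Sq m)) hvc hwc hw0
    obtain ⟨d₁, hd₁, H2⟩ := ev_congr_exL (by omega) hvn hw ha hG hGb
    refine ⟨min d₁ d₃, lt_min hd₁ hd₃, fun δ hδ0 hδ ι hι h0 => ?_⟩
    have h2 := H2 δ hδ0 (hδ.trans (min_le_left _ _)) ι hι
    have h3 := hev k δ hδ0 (hδ.trans (min_le_right _ _)) ι hι
    rw [h0, mul_zero] at h2
    have h4 : (fun l : List (Fin (m + 1) → ℝ) => v (l.map G)) =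
        fun l => (tauS (Homeomorph.refl (Sq m)) k H one_pos hN).f
          (l.map fun θ => pr true (G θ) q) := by
      funext l
      rw [hv]
      simp only [List.map_map]
      rfl
    rw [h4, h3] at h2
    exact one_ne_zero h2
  · rw [List.isChain_map] at h
    exact h.imp fun _ _ h1 h2 => h1 (congrArg (fun x => (x, q)) h2)

variable {M : Type} [MetricSpace M] [CompactSpace M]

omit [CompactSpace M] in
/-- **Detection.** -/
theorem detects_of {k : Type} [Field k] {f : M → Sq m} {g : Sq m → M}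
    (hg : Continuous g) {w : List (Sq m) → k} (hw : Nrm w) {c : k} (hc : c ≠ 0)
    (hfg : ExL univ (m + 1) fun l => w (l.map fun x => f (g x)) - c * w l)
    {ρ₁ : ℝ} (τ : N929.Tau k M (m + 1) ρ₁)
    (hτ : ∀ y, ExL univ (m + 1) fun l => τ.f (l.map fun x => (x, y)) - w (l.map f))
    {G : (Fin (m + 1) → ℝ) → Sq m} {q : Sq m} (hG : Continuous G)
    (hGb : ∀ θ ∈ bdc (m + 1), G θ = q)
    (hdet : ∃ d > 0, ∀ δ, 0 < δ → δ ≤ d →
        ∀ ι : Ch k ℝ, IsMesh ι 0 1 δ → ev (fun l => w (l.map G)) (Qc ι (m + 1)) ≠ 0) :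
    Detects τ fun θ => g (G θ) := by
  intro p
  obtain ⟨d₀, hd₀, H0⟩ := hdet
  have e1 : ExL univ (m + 1) fun l => τ.f (l.map fun x => (x, p)) - 1 * w (l.map f) := by
    have := hτ p
    simpa only [one_mul] using this
  obtain ⟨d₁, hd₁, H1⟩ := ev_congr_exL (by omega) (τ.nrm.map _) (hw.map f) e1
    (hg.comp hG) (q := g q) fun θ hθ => congrArg g (hGb θ hθ)
  obtain ⟨d₂, hd₂, H2⟩ := ev_congr_exL (by omega) (hw.map fun x => f (g x)) hw hfg hG hGb
  refine ⟨min d₀ (min d₁ d₂), lt_min hd₀ (lt_min hd₁ hd₂), fun δ hδ0 hδ ι hι h0 => ?_⟩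
  have h1 := H1 δ hδ0 (hδ.trans ((min_le_right _ _).trans (min_le_left _ _))) ι hι
  have h2 := H2 δ hδ0 (hδ.trans ((min_le_right _ _).trans (min_le_right _ _))) ι hι
  refine H0 δ hδ0 (hδ.trans (min_le_left _ _)) ι hι ?_
  simp only [List.map_map] at h1 h2
  have h3 : ev (fun l => τ.f (l.map fun θ => (g (G θ), p))) (Qc ι (m + 1)) =
      1 * (c * ev (fun l => w (l.map G)) (Qc ι (m + 1))) := by
    rw [← h2]
    exact h1
  rw [h0, one_mul] at h3
  exact (mul_eq_zero.1 h3.symm).resolve_left hc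

/-- **(A) OMEGA for `M` with a map to the sphere of non-zero degree.** -/
theorem omegaD_of_deg (M : Type) [MetricSpace M] [CompactSpace M] [SimplyConnectedSpace M]
    [Nontrivial M] (hm : 1 ≤ m) {ρ : ℝ} (hρ : 0 < ρ) (hU : LS.UniqSeg M ρ) (x₀ : M)
    {f : M → Sq m} {g : Sq m → M} (hg : Continuous g)
    (Pk : ∀ (k : Type) [Field k], Prop)
    (H : ∀ (k : Type) [Field k], Pk k → ∃ (w : List (Sq m) → k) (c : k), c ≠ 0 ∧ Nrm w ∧
      CocL univ (m + 1) w ∧ ¬ ExL univ (m + 1) w ∧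
      (ExL univ (m + 1) fun l => w (l.map fun x => f (g x)) - c * w l) ∧
      ∀ ρ₁ > 0, ∃ τ : N929.Tau k M (m + 1) ρ₁, ∀ y, ExL univ (m + 1) fun l =>
        τ.f (l.map fun x => (x, y)) - w (l.map f)) :
    ∃ B : ℝ, 0 < B ∧ ∀ (k : Type) [Field k], Pk k → Nonempty (B64.OmegaOut M m x₀ B k) := by
  obtain ⟨G, q, hG, hGb, hdet⟩ := exists_cube hm
  refine omegaD M (n := m + 1) (by omega) hρ hU x₀ (hg.comp hG) (xm := g q)
    (fun θ hθ => congrArg g (hGb θ hθ)) Pk fun ρ₁ hρ₁ k _ hk => ?_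
  obtain ⟨w, c, hc, hw, hwc, hw0, hfg, hτ⟩ := H k hk
  obtain ⟨τ, hτ⟩ := hτ ρ₁ hρ₁
  exact ⟨τ, detects_of hg hw hc hfg τ hτ hG hGb (hdet k w hw hwc hw0)⟩

end Sphere

end Vale.Agent.P216.ND
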