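import Vale.Agent.P216.D754.D1
import Vale.Agent.P216.H494.CovMain

/-!
# P216-D, D1: rational homology spheres (by maps), and the manifolds they cover
-/

open Set Topology Bundle Manifold
open scoped ContDiff
open Vale.Agent.P216.H494

namespace Vale.Agent.P216.ND

open Vale.Agent.P216.H779D (Sq powS)

/-- Some compact simply connected covering space `X` of `M` (or of a component of `M`) has maps
`f : X → S^n`, `g : S^n → X` such that `f ∘ g` has degree `D ≠ 0`, i.e. is homotopic to
`(z, y) ↦ (z ^ D / |z| ^ (D - 1), y)`, `n = m + 1`. -/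
inductive DegreeCovered (m : ℕ) (M : Type) [TopologicalSpace M] : Prop
  | intro {X : Type} [TopologicalSpace X] [CompactSpace X] [T2Space X] [SimplyConnectedSpace X]
      (q : X → M) (hq : IsCoveringMap q) (f : C(X, Sq m)) (g : C(Sq m, X)) {D : ℤ} (hD : D ≠ 0)
      (h : (f.comp g).Homotopic (powS m D)) : DegreeCovered m M

/-- **D1 with coverings**: every Riemannian metric on a closed manifold of dimension `m + 1 ≥ 4`
covered by a simply connected rational homology sphere (by maps). -/
theorem infinite_of_degreeCovered {E : Type} [NormedAddCommGroup E] [NormedSpace ℝ E]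
    [FiniteDimensional ℝ E]
    {M : Type} [MetricSpace M] [CompactSpace M] [ChartedSpace E M] [IsManifold 𝓘(ℝ, E) ∞ M]
    [RiemannianBundle (fun x : M => TangentSpace 𝓘(ℝ, E) x)]
    [IsContMDiffRiemannianBundle 𝓘(ℝ, E) ∞ E (fun x : M => TangentSpace 𝓘(ℝ, E) x)]
    [IsRiemannianManifold 𝓘(ℝ, E) M] {m : ℕ} (hm : 3 ≤ m)
    (hdim : Module.finrank ℝ E = m + 1) (h : DegreeCovered m M) :
    (primeClosedGeodesicImages M).Infinite := by
  obtain ⟨q, hq, f, g, hD, h⟩ := h
  refine infinite_of_localHomeomorph (E := E) hq.isLocalHomeomorph ?_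
  intro N _ _ _ _ _ _ _ hN
  obtain ⟨e⟩ := hN
  have : SimplyConnectedSpace N := e.toHomotopyEquiv.simplyConnectedSpace
  let a : C(N, _) := ⟨e, e.continuous⟩
  let b : C(_, N) := ⟨e.symm, e.symm.continuous⟩
  refine D754.d1_final (E := E) hm hdim (f.comp a) (b.comp g) hD ?_
  have e1 : (f.comp a).comp (b.comp g) = f.comp g := by
    ext1 x
    change f (e (e.symm (g x))) = f (g x)
    rw [e.apply_symm_apply]
  rw [e1]
  exact h

end Vale.Agent.P216.ND
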