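import Vale.Agent.P216.ND.Det
import Vale.Agent.P216.H977C.Eta

/-!
# P216-D, block [OM1]: OMEGA for homology spheres, from the non-vanishing of the loop class

`h = 1`: `ω` is a non-exact cocycle of degree `n` on `M`, `eta N ω` the fibre integral of `ω (w σ)`;
if `eta N ω` is not exact on the loops of a duration `s` (independent of the field), the based
loops of `M` have the cohomology of the based loops of the sphere.
-/

open Set Finsupp BoundedContinuousFunction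

namespace Vale.Agent.P216.ND

open Vale.Agent.P216.Sl Vale.Agent.P216.PS Vale.Agent.P216.N929 Vale.Agent.P216.Tau
open Vale.Agent.P216.H140 (eta evw)
open Vale.Agent.P216.Sg (Sp_SmL_sh exists_seg')

section

variable {k : Type} [Field k] {M : Type} [MetricSpace M] {q q' : M} {s δ : ℝ} {n : ℕ}

theorem evw_small {S' : Set ℝ} {L : List ((ℝ →ᵇ M) × ℝ)} (hL : SmL (P q q' s ×ˢ S') δ L) :
    SmL (univ : Set M) (2 * δ) (L.map evw) := by
  refine ⟨fun _ _ => mem_univ _, fun x hx y hy => ?_⟩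
  obtain ⟨a, ha, rfl⟩ := List.mem_map.1 hx
  obtain ⟨b, hb, rfl⟩ := List.mem_map.1 hy
  have h1 := hL.2 a ha b hb
  rw [Prod.dist_eq, max_lt_iff] at h1
  exact Sg.dist_ev_lt (hL.1 a ha).1 h1.1 h1.2

/-- The integral of a cocycle of `M` over a cycle of loops does not depend on the mesh. -/
theorem ev_mesh {F : List M → k} (hF : Nrm F) {εF : ℝ} (hc : N929.Coc univ εF n F) (hn : 2 ≤ n)
    (hδ : 0 < δ) (hδF : 2 * δ ≤ εF) {Y : Ch k (ℝ →ᵇ M)} (hY : Cy (P q q' s) δ (n - 1) Y)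
    {T T' : ℝ} (hs : s ≤ T) (hT : 0 ≤ T) (hTT : T ≤ T') {ι ι' : Ch k ℝ} (hι : Edge 0 T δ ι)
    (hι' : Edge 0 T' δ ι') :
    ev (fun L => F (L.map evw)) (sh Y ι) = ev (fun L => F (L.map evw)) (sh Y ι') := by
  obtain ⟨κ, hκ, hbκ⟩ := exists_seg' k hTT hδ
  have hbz : bd Y = 0 := bd_eq_zero hY (by omega)
  have hzn : Y ∈ Sp k (Ln (n - 1 + 1)) := Sp_mono (fun l hl => hl.1) hY.1
  have hm1 : ι ∈ Sp k (fun l => l.length = 2 ∧ SmL (Icc 0 T') δ l) :=
    Sp_mono (fun l hl => ⟨hl.1, SmL.mono hl.2 (Icc_subset_Icc_right hTT) le_rfl⟩) hι.1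
  have hm2 : κ ∈ Sp k (fun l => l.length = 2 ∧ SmL (Icc 0 T') δ l) :=
    Sp_mono (fun l hl => ⟨hl.1, hl.2.mono (Icc_subset_Icc_left hT) le_rfl⟩) hκ
  obtain ⟨e, he, hbe⟩ := H971.cycle_bd (c := ι' - ι - κ) (a := 0) (b := T') (δ := δ)
    (Submodule.sub_mem _ (Submodule.sub_mem _ hι'.1 hm1) hm2)
    (by rw [map_sub, map_sub, hι'.2, hι.2, hbκ]; abel)
  have h1 : ev (fun L => F (L.map evw)) (sh Y (bd e)) = 0 := by
    have h2 := bd_sh (p := n - 1) (q := 2) (by omega) hzn (Sp_mono (fun l hl => hl.1) he)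
    rw [hbz, map_zero, LinearMap.zero_apply, zero_add] at h2
    have h3 : ev (dl fun L => F (L.map evw)) (sh Y e) = 0 := by
      refine ev_zero_of (fun l hl => ?_) (Sp_SmL_sh (q := 2) hY.1 he)
      rw [Sl.dl_map]
      exact hc _ (by rw [List.length_map, hl.1]; omega)
        (SmL.mono (evw_small hl.2) le_rfl hδF)
    rw [ev_dl, h2, map_smul, smul_eq_mul] at h3
    rcases mul_eq_zero.1 h3 with h4 | h4
    · exact absurd h4 (pow_ne_zero _ (neg_ne_zero.2 one_ne_zero))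
    · exact h4
  have h5 : ev (fun L => F (L.map evw)) (sh Y κ) = 0 := by
    refine ev_zero_of (fun l hl => ?_) (Sp_SmL_sh (q := 1) hY.1 hκ)
    refine H977C.Nrm_const hF (a := q') (by rw [List.length_map, hl.1]; omega) fun x hx => ?_
    obtain ⟨p, hp, rfl⟩ := List.mem_map.1 hx
    have := hl.2.1 p hp
    exact PS.eq_right this.1 (hs.trans this.2.1)
  rw [hbe, map_sub, map_sub, map_sub, map_sub, h5, sub_zero, sub_eq_zero] at h1
  exact h1.symm

/-- An exact cochain of `M` integrates to zero over a cycle of closed loops. -/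
theorem ev_exact_loops {u : List M → k} (hn : 2 ≤ n)
    {Y : Ch k (ℝ →ᵇ M)} (hY : Cy (P q q s) δ (n - 1) Y)
    {ι : Ch k ℝ} (hι : Edge 0 s δ ι) :
    ev (dl fun L : List ((ℝ →ᵇ M) × ℝ) => u (L.map evw)) (sh Y ι) = 0 := by
  have hbz : bd Y = 0 := bd_eq_zero hY (by omega)
  have hzn : Y ∈ Sp k (Ln (n - 1 + 1)) := Sp_mono (fun l hl => hl.1) hY.1
  have hne : Y ∈ Sp k Ne := Sp_mono (fun l hl h0 => by
    have := hl.1; rw [h0] at this; simp at this) hY.1
  have h2 := bd_sh (p := n - 1) (q := 1) (by omega) hzn (Sp_mono (fun l hl => hl.1) hι.1)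
  rw [hbz, map_zero, LinearMap.zero_apply, zero_add, hι.2, map_sub, sh_point_right _ hne,
    sh_point_right _ hne] at h2
  rw [ev_dl, h2, map_smul, map_sub, ev_mp, ev_mp]
  have e : ev (fun l : List (ℝ →ᵇ M) => u ((l.map fun a => (a, s)).map evw)) Y =
      ev (fun l : List (ℝ →ᵇ M) => u ((l.map fun a => (a, (0 : ℝ))).map evw)) Y := by
    refine ev_congr (fun l hl => ?_) hY.1
    rw [List.map_map, List.map_map]
    congr 1
    refine List.map_congr_left fun w hw => ?_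
    have := hl.2.1 w hw
    exact (PS.eq_right this le_rfl).trans (PS.eq_left this le_rfl).symm
  rw [e, sub_self, smul_zero]

/-- Cohomologous normalised cocycles of `M` have the same integral over cycles of loops. -/
theorem ev_congr_loops {F F' : List M → k} (hn : 2 ≤ n)
    (h : ExL univ n fun l => F l - F' l) : ∃ ε > 0, ∀ δ, 0 < δ → 2 * δ ≤ ε →
      ∀ Y : Ch k (ℝ →ᵇ M), Cy (P q q s) δ (n - 1) Y → ∀ ι : Ch k ℝ, Edge 0 s δ ι →
      ev (fun L => F (L.map evw)) (sh Y ι) = ev (fun L => F' (L.map evw)) (sh Y ι) := by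
  obtain ⟨u, -, ε, hε, hu⟩ := h
  refine ⟨ε, hε, fun δ hδ hδε Y hY ι hι => ?_⟩
  have h1 : ev (fun L => F (L.map evw)) (sh Y ι) =
      ev (fun L => F' (L.map evw) + dl (fun L : List ((ℝ →ᵇ M) × ℝ) => u (L.map evw)) L)
        (sh Y ι) := by
    refine ev_congr (fun l hl => ?_) (Sp_SmL_sh (q := 1) hY.1 hι.1)
    rw [Sl.dl_map, ← hu _ (by rw [List.length_map, hl.1]; omega)
      (SmL.mono (evw_small hl.2) le_rfl hδε)]
    ring
  rw [h1, ev_add_fun, ev_exact_loops hn hY hι, add_zero]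

/-- **Cycles of loops on which `τ (w σ, y)` integrates to one**, from the non-vanishing of
`eta N ω`. -/
theorem cycles_of_eta {ρ₁ : ℝ} (hn : 2 ≤ n) {ω : List M → k} (hω : Nrm ω) {εω : ℝ}
    (hc : N929.Coc univ εω n ω) (hs : 0 ≤ s) {N : ℕ} (hN : 1 / ((N : ℝ) + 1) < εω / 4)
    (hne : ¬ ExL (P q q s) (n - 1) (eta N ω)) (τ : N929.Tau k M n ρ₁) (y : M)
    (hτ : ExL univ n fun l => τ.f (l.map fun x => (x, y)) - ω l) :
    ∃ ε₁ > 0, ∀ ε, 0 < ε → ε ≤ ε₁ → ∃ a : Ch k (ℝ →ᵇ M), Cy (P q q s) ε (n - 1) a ∧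
      ∀ ι, Edge 0 s ε ι → ev (fun l => τ.f (l.map (evp y))) (sh a ι) = 1 := by
  obtain ⟨ε₂, hε₂, hex⟩ := ev_congr_loops (k := k) (q := q) (s := s) hn hτ
  have hδN : (0 : ℝ) < 1 / ((N : ℝ) + 1) := by positivity
  have hεω : 0 < εω := by linarith
  refine ⟨min (εω / 2) (min (ε₂ / 2) (τ.ε / 2)), lt_min (by linarith) (lt_min (half_pos hε₂)
    (half_pos τ.hε)), fun ε hε hε' => ?_⟩
  have e1 : 2 * ε ≤ εω := by
    have := hε'.trans (min_le_left _ _)
    linarith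
  have e2 : 2 * ε ≤ ε₂ := by
    have := hε'.trans ((min_le_right _ _).trans (min_le_left _ _))
    linarith
  have e3 : 2 * ε ≤ τ.ε := by
    have := hε'.trans ((min_le_right _ _).trans (min_le_right _ _))
    linarith
  obtain ⟨Y, hY, hYne⟩ := not_ex_iff.1 hne ε hε
  obtain ⟨N', hN'⟩ := exists_nat_gt (s / (1 / ((N : ℝ) + 1)))
  have hsN : s ≤ N' * (1 / ((N : ℝ) + 1)) := by
    rw [div_lt_iff₀ hδN] at hN'
    exact hN'.le
  -- the value of the class on the cycle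
  have hev : ev (eta N ω) Y =
      ev (fun L => ω (L.map evw)) (sh Y (mesh k (1 / ((N : ℝ) + 1)) N')) := by
    rw [← N929.ev_fib]
    refine ev_congr (fun l hl => ?_) hY.1
    refine H977C.eta_eq N hω (b := q) hsN ?_ fun w hw u hu =>
      PS.eq_right (hl.2.1 w hw) hu
    rintro rfl
    simp at hl
  have key : ∀ ι : Ch k ℝ, Edge 0 s ε ι →
      ev (fun l => τ.f (l.map (evp y))) (sh Y ι) = ev (eta N ω) Y := by
    intro ι hι
    have h1 := hex ε hε e2 Y hY ι hι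
    have h2 := ev_mesh (q := q) (q' := q) (s := s) hω hc hn (δ := εω / 2) (half_pos hεω)
      (by linarith) (hY.mono le_rfl (by linarith)) le_rfl hs hsN (ι := ι)
      ⟨Sp_mono (fun l hl => ⟨hl.1, SmL.mono hl.2 le_rfl (by linarith)⟩) hι.1, hι.2⟩
      (edge_mesh hδN (by linarith) N')
    rw [hev, ← h2, ← h1]
    refine ev_congr (P := fun _ => True) (fun l _ => ?_) (by simp [Finsupp.mem_supported])
    rw [List.map_map]
    rfl
  refine ⟨(ev (eta N ω) Y)⁻¹ • Y, ⟨Submodule.smul_mem _ _ hY.1, by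
    rw [map_smul]
    exact Submodule.smul_mem _ _ hY.2⟩, fun ι hι => ?_⟩
  rw [map_smul, LinearMap.smul_apply, map_smul, smul_eq_mul, key ι hι, inv_mul_cancel₀ hYne]

end

/-- **[OM1]** OMEGA for `h = 1`. -/
theorem omega_one (M : Type) [MetricSpace M] [CompactSpace M] [SimplyConnectedSpace M]
    [Nontrivial M] {n : ℕ} (hn : 2 ≤ n) {ρ : ℝ} (hρ : 0 < ρ) (hU : LS.UniqSeg M ρ) (x₀ : M)
    {s : ℝ} (hs : 0 ≤ s) (Kf : ∀ (k : Type) [Field k], Prop)
    (H : ∀ (k : Type) [Field k], Kf k → ∃ (ω : List M → k) (ε : ℝ), Nrm ω ∧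
      N929.Coc univ ε n ω ∧
      (∀ ρ₁ > 0, ∃ τ : N929.Tau k M n ρ₁, ∀ y, ExL univ n fun l =>
        τ.f (l.map fun x => (x, y)) - ω l) ∧
      ∀ q : M, ∃ N : ℕ, 1 / ((N : ℝ) + 1) < ε / 4 ∧ ¬ ExL (P q q s) (n - 1) (eta N ω)) :
    ∃ B : ℝ, 0 < B ∧ ∀ (k : Type) [Field k], Kf k →
      Nonempty (B64.OmegaOut M (n - 1) x₀ B k) := by
  obtain ⟨a, b, h1, h2, h3⟩ := exists_points' x₀
  obtain ⟨G, rfl⟩ := exists_geo hU hρ hn h1 h2 h3
  obtain ⟨D, hD, hne, hj⟩ := H250.pi0 hρ hU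
  refine ⟨OmSys.BB G.r (D + s) D, ?_, fun k _ hk => ?_⟩
  · have := G.hr
    unfold OmSys.BB
    linarith
  · obtain ⟨ω, ε, hω, hc, hτ, hη⟩ := H k hk
    obtain ⟨τ, hτ⟩ := hτ G.ρ₁ G.h1
    have S : OmSys k M (n - 1) G.r (D + s) G.x₀ τ.f :=
      omSys G τ Crs.cross (N := n - 1) (by omega) (fun _ => D) (fun _ => s) (fun _ => hD)
        (fun _ => hs) (fun _ => rfl) (fun c => hne _ _) fun c => by
          obtain ⟨N, hN, hneη⟩ := hη (G.y c)
          exact cycles_of_eta hn hω hc hs hN hneη τ (G.y (!c)) (hτ _)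
    refine ⟨S.omegaOut (r₀ := G.ρ₁) (εt := τ.ε) (D := D) G.seg G.hr G.hrρ G.h1r τ.hε ?_
      ⟨hD, hne, hj⟩ (by linarith) (by omega)⟩
    have e : n - 1 + 1 = n := by omega
    rw [e]
    exact ⟨τ.nrm, τ.coc, fun l _ _ h => τ.supp l h⟩

end Vale.Agent.P216.ND
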